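import Vale.Agent.P146.H767.SA4
import Vale.Agent.P146.H327.Sa

/-!
# P146: tails of the squared gradient in the one-window law

The law with the free position `z₁` at the time `t₀ = 1 - σ` and the exponent `x` on `[t₀, 1]`.
Conditionally on `z₁` the squared gradient at a later time `s` has exponential tails on both sides
(`pin_up`, `pin_lo`), in terms of the value functions at `z₁`; the free position is controlled by
the self-averaging of the value functions (`base_up`, `base_dn`).
-/

open MeasureTheory ProbabilityTheory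

namespace Vale.Agent.P146.H620

open Vale.Agent.P157.Lv Vale.Agent.P146.H425 Vale.Agent.P146.R1 Vale.Agent.P146.H376
  Vale.Agent.P146.H767 Vale.Agent.P146.H327

set_option linter.unusedSectionVars false

section gen

variable {κ : Type} [Fintype κ] {F U : (κ → ℝ) → ℝ} {D DU : κ → (κ → ℝ) → ℝ}
  {B L x s t0 σ lam δ S M X l : ℝ}

lemma meas_sq (h : C11 F D B L) (hx : 0 < x) (s : ℝ) : Measurable (sq x s F D) :=
  (eg_sq h hx s).meas

lemma eg_iup (h : C11 F D B L) (hx : 0 < x) (s M : ℝ) :
    EG fun z => if M ≤ sq x s F D z then (1 : ℝ) else 0 := by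
  refine EG.of_bdd (C := 1) (Measurable.ite (measurableSet_le measurable_const (meas_sq h hx s))
    measurable_const measurable_const) fun z => ?_
  split_ifs <;> simp

lemma eg_ilo (h : C11 F D B L) (hx : 0 < x) (s M : ℝ) :
    EG fun z => if sq x s F D z ≤ M then (1 : ℝ) else 0 := by
  refine EG.of_bdd (C := 1) (Measurable.ite (measurableSet_le (meas_sq h hx s) measurable_const)
    measurable_const measurable_const) fun z => ?_
  split_ifs <;> simp

/-- **Conditional upper tail.** -/
theorem pin_up (h : C11 F D B L) (hc : Cv F) (hx : 0 < x) (h0 : t0 ≤ s) (hs : s ≤ 1) (M : ℝ)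
    (y : κ → ℝ) :
    pin x t0 s F (fun z => if M ≤ sq x s F D z then (1 : ℝ) else 0) y ≤
      Real.exp (x * uu (2 * x) t0 F y - x ^ 2 / 2 * ((1 - s) * M)) := by
  have hx2 : 0 < 2 * x := by positivity
  have c2 := c11_uu h hx2 s
  have e2 : EG fun z => Real.exp (x * uu (2 * x) s F z) := c2.eg_exp x
  have h1 : pin x t0 s F (fun z => if M ≤ sq x s F D z then (1 : ℝ) else 0) y ≤
      ∫ w, Real.exp (-(x ^ 2 / 2 * ((1 - s) * M))) *
        Real.exp (x * uu (2 * x) s F (y + √(s - t0) • w)) ∂(gI κ) := by
    unfold pin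
    refine integral_mono (EG.add_smul (eg_eu h hx (eg_iup h hx s M) s) y _).integrable
      ((EG.add_smul e2 y _).const_mul _).integrable fun w => ?_
    simp only
    set z := y + √(s - t0) • w with hz
    split_ifs with hM
    · rw [mul_one, ← Real.exp_add]
      refine Real.exp_le_exp.2 ?_
      have h3 := W_two_ge (b := √(1 - s)) h hc hx z
      rw [Real.sq_sqrt (by linarith)] at h3
      have h4 : uu x s F z + x / 2 * ((1 - s) * sq x s F D z) ≤ uu (2 * x) s F z := h3
      have h5 : (1 - s) * M ≤ (1 - s) * sq x s F D z :=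
        mul_le_mul_of_nonneg_left hM (by linarith)
      have h6 : x ^ 2 / 2 * ((1 - s) * M) ≤ x ^ 2 / 2 * ((1 - s) * sq x s F D z) :=
        mul_le_mul_of_nonneg_left h5 (by positivity)
      have h7 := mul_le_mul_of_nonneg_left h4 hx.le
      nlinarith
    · rw [mul_zero]
      positivity
  refine h1.trans ?_
  rw [integral_const_mul, ← c2.lip.exp_W c2.B0 hx y, ← Real.exp_add]
  refine Real.exp_le_exp.2 ?_
  have h2 : W x (√(s - t0)) (uu (2 * x) s F) y ≤ uu (2 * x) t0 F y := by
    refine (H941.W_mono_exp (s := √(s - t0)) c2.lip c2.B0 hx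
      (by linarith : x ≤ 2 * x) y).trans (le_of_eq ?_)
    unfold uu
    refine W_W h.lip h.B0 hx2 ?_ y
    rw [Real.sq_sqrt (by linarith), Real.sq_sqrt (by linarith), Real.sq_sqrt (by linarith)]
    ring
  have h3 := mul_le_mul_of_nonneg_left h2 hx.le
  linarith

/-- **Conditional lower tail.** -/
theorem pin_lo (h : C11 F D B L) (hc : Cv F) (hx : 0 < x) (h0 : t0 ≤ s) (hs : s ≤ 1)
    (X l : ℝ) (y : κ → ℝ) :
    pin x t0 s F (fun z => if sq x s F D z ≤ l ^ 2 then (1 : ℝ) else 0) y ≤
      Real.exp (x * uu x t0 F y) * (Real.exp (-X + (2 * x) ^ 2 * l ^ 2 * (s - t0)) +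
        Real.exp (X / 2 - x / 2 * (uu x t0 F y - W (x / 2) (√(s - t0)) (uu x s F) y))) := by
  have c := c11_uu h hx s
  have hx2 : 0 < x / 2 := by positivity
  obtain ⟨u, hu⟩ : ∃ u, u = uu x t0 F y := ⟨_, rfl⟩
  have hs1 := pl_slice h hc hx h0 hs (lam := 2 * x) (l := l) (by positivity) y
  have e1 : EG fun z => (if sq x s F D z ≤ l ^ 2 then
      Real.exp (2 * x * (uu x s F z - u)) else 0) := by
    have e := (eg_ilo h hx s (l ^ 2)).mul ((c.eg_exp (2 * x)).mul
      (EG.const (Real.exp (-(2 * x * u)))))
    have ee : (fun z => (if sq x s F D z ≤ l ^ 2 then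
        Real.exp (2 * x * (uu x s F z - u)) else 0)) = fun z =>
        (if sq x s F D z ≤ l ^ 2 then (1 : ℝ) else 0) * (Real.exp (2 * x * uu x s F z) *
          Real.exp (-(2 * x * u))) := by
      funext z
      split_ifs
      · rw [one_mul, ← Real.exp_add]
        congr 1
        ring
      · rw [zero_mul]
    rw [ee]
    exact e
  have e2 : EG fun z => Real.exp (x / 2 * uu x s F z) := c.eg_exp (x / 2)
  have h1 : pin x t0 s F (fun z => if sq x s F D z ≤ l ^ 2 then (1 : ℝ) else 0) y ≤
      ∫ w, (Real.exp (x * u - X) * (if sq x s F D (y + √(s - t0) • w) ≤ l ^ 2 then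
        Real.exp (2 * x * (uu x s F (y + √(s - t0) • w) - u)) else 0) +
        Real.exp (x * u + X / 2 - x / 2 * u) *
          Real.exp (x / 2 * uu x s F (y + √(s - t0) • w))) ∂(gI κ) := by
    unfold pin
    refine integral_mono (EG.add_smul (eg_eu h hx (eg_ilo h hx s (l ^ 2)) s) y _).integrable
      (((EG.add_smul e1 y _).const_mul _).add ((EG.add_smul e2 y _).const_mul _)).integrable
      fun w => ?_
    simp only
    set z := y + √(s - t0) • w with hz
    split_ifs with hM
    · rw [mul_one]
      rcases le_total X (x * (uu x s F z - u)) with h3 | h3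
      · have k1 : Real.exp (x * uu x s F z) ≤
            Real.exp (x * u - X) * Real.exp (2 * x * (uu x s F z - u)) := by
          rw [← Real.exp_add]
          refine Real.exp_le_exp.2 ?_
          linarith
        have k2 := Real.exp_pos (x * u + X / 2 - x / 2 * u)
        have k3 := Real.exp_pos (x / 2 * uu x s F z)
        nlinarith [mul_pos k2 k3]
      · have k1 : Real.exp (x * uu x s F z) ≤
            Real.exp (x * u + X / 2 - x / 2 * u) * Real.exp (x / 2 * uu x s F z) := by
          rw [← Real.exp_add]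
          refine Real.exp_le_exp.2 ?_
          linarith
        have k2 := Real.exp_pos (x * u - X)
        have k3 := Real.exp_pos (2 * x * (uu x s F z - u))
        nlinarith [mul_pos k2 k3]
    · rw [mul_zero, mul_zero, zero_add]
      positivity
  refine h1.trans ?_
  rw [integral_add ((EG.add_smul e1 y _).const_mul _).integrable
    ((EG.add_smul e2 y _).const_mul _).integrable, integral_const_mul, integral_const_mul,
    ← c.lip.exp_W c.B0 hx2 y, ← Real.exp_add, ← hu, mul_add, ← Real.exp_add, ← Real.exp_add]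
  rw [← hu] at hs1
  refine add_le_add ?_ (Real.exp_le_exp.2 (by linarith))
  calc Real.exp (x * u - X) * ∫ w, (if sq x s F D (y + √(s - t0) • w) ≤ l ^ 2 then
        Real.exp (2 * x * (uu x s F (y + √(s - t0) • w) - u)) else 0) ∂(gI κ)
      ≤ Real.exp (x * u - X) * Real.exp ((2 * x) ^ 2 * l ^ 2 * (s - t0)) :=
        mul_le_mul_of_nonneg_left hs1 (Real.exp_pos _).le
    _ = _ := by
        rw [← Real.exp_add]
        congr 1
        ring

/-- **Upper tail of a function of the free position.** -/
theorem base_up (h : LipB U B) (hB : 0 ≤ B) (hl : 0 < lam) (b δ : ℝ) :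
    ∫ z, (if Mn b U 0 + δ ≤ U (b • z) then (1 : ℝ) else 0) ∂(gI κ) ≤
      Real.exp (lam * (W lam b U 0 - Mn b U 0) - lam * δ) := by
  have hlU : Lip fun w => U (b • w) := by simpa using h.lip_smul hB 0 b
  have e1 := h.exp_W (s := b) hB hl 0
  simp only [zero_add] at e1
  have e2 : EG fun z => Real.exp (lam * U (b • z)) := hlU.exp_eg lam
  have h1 : ∫ z, (if Mn b U 0 + δ ≤ U (b • z) then (1 : ℝ) else 0) ∂(gI κ) ≤
      ∫ z, Real.exp (-(lam * (Mn b U 0 + δ))) * Real.exp (lam * U (b • z)) ∂(gI κ) := by
    refine integral_mono (EG.of_bdd (C := 1) (Measurable.ite (measurableSet_le measurable_const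
      hlU.measurable) measurable_const measurable_const) fun z => ?_).integrable
      (e2.const_mul _).integrable fun z => ?_
    · split_ifs <;> simp
    · simp only
      rw [← Real.exp_add]
      split_ifs with hM
      · refine Real.one_le_exp ?_
        have := mul_le_mul_of_nonneg_left hM hl.le
        linarith
      · positivity
  refine h1.trans ?_
  rw [integral_const_mul, ← e1, ← Real.exp_add]
  refine Real.exp_le_exp.2 ?_
  linarith

/-- **Lower tail of a convex function of the free position.** -/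
theorem base_dn (h : LipB U B) (hB : 0 ≤ B) (hc : Cv U) (b δ : ℝ) (hS : 0 < S)
    (hV : ∫ w, (U (b • w) - Mn b U 0) ^ 2 ∂(gI κ) ≤ S ^ 2) :
    ∫ z, (if U (b • z) ≤ Mn b U 0 - δ then (1 : ℝ) else 0) ∂(gI κ) ≤
      Real.exp (3 / 2 - δ / (12 * S)) := by
  have hlU : Lip fun w => U (b • w) := by simpa using h.lip_smul hB 0 b
  have ei : EG fun z => if U (b • z) ≤ Mn b U 0 - δ then (1 : ℝ) else 0 := by
    refine EG.of_bdd (C := 1) (Measurable.ite (measurableSet_le hlU.measurable
      measurable_const) measurable_const measurable_const) fun z => ?_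
    split_ifs <;> simp
  obtain ⟨p, hp⟩ : ∃ p, p = ∫ z, (if U (b • z) ≤ Mn b U 0 - δ then (1 : ℝ) else 0) ∂(gI κ) :=
    ⟨_, rfl⟩
  rw [← hp]
  rcases le_or_gt p 0 with h0 | h0
  · exact h0.trans (Real.exp_pos _).le
  obtain ⟨q, hq⟩ : ∃ q : (κ → ℝ) → ℝ, q = fun z =>
      p⁻¹ * if U (b • z) ≤ Mn b U 0 - δ then (1 : ℝ) else 0 := ⟨_, rfl⟩
  have eq : EG q := by
    rw [hq]
    exact ei.const_mul _
  have q0 : ∀ z, 0 ≤ q z := fun z => by
    rw [hq]
    simp only
    split_ifs <;> simp [h0.le]
  have q1 : ∀ z, q z ≤ p⁻¹ := fun z => by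
    rw [hq]
    simp only
    split_ifs <;> simp [h0.le]
  have qi : ∫ z, q z ∂(gI κ) = 1 := by
    rw [hq, integral_const_mul, ← hp]
    exact inv_mul_cancel₀ h0.ne'
  have k1 := dn_shift h hB hc b 0 hS (by simpa using hV) eq q0 qi
  have k2 := Hq_le eq q0 qi q1
  simp only [zero_add] at k1
  have k3 : ∫ z, q z * U (b • z) ∂(gI κ) ≤ Mn b U 0 - δ := by
    have e3 : ∫ z, q z * U (b • z) ∂(gI κ) ≤ ∫ z, q z * (Mn b U 0 - δ) ∂(gI κ) := by
      refine integral_mono (eq.mul hlU.eg).integrable (eq.integrable.mul_const _) fun z => ?_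
      simp only
      rw [hq]
      simp only
      split_ifs with hM
      · exact mul_le_mul_of_nonneg_left hM (by positivity)
      · simp
    rwa [integral_mul_const, qi, one_mul] at e3
  have k4 : Real.log (p⁻¹) = -Real.log p := Real.log_inv p
  have k5 : δ ≤ 12 * S * (-Real.log p + 3 / 2) := by
    have : 12 * S * (Hq q + 3 / 2) ≤ 12 * S * (-Real.log p + 3 / 2) := by
      rw [← k4]
      exact mul_le_mul_of_nonneg_left (by linarith) (by positivity)
    linarith
  have k6 : Real.log p ≤ 3 / 2 - δ / (12 * S) := by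
    have : δ / (12 * S) ≤ -Real.log p + 3 / 2 := by
      rw [div_le_iff₀ (by positivity)]
      linarith
    linarith
  exact (Real.log_le_iff_le_exp h0).1 k6

end gen

end Vale.Agent.P146.H620
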