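import Vale.Agent.P146.H620.Fd1

/-!
# P146: tails of the squared gradient in the one-window law, free position integrated
-/

open MeasureTheory ProbabilityTheory

namespace Vale.Agent.P146.H620

open Vale.Agent.P157.Lv Vale.Agent.P146.H425 Vale.Agent.P146.R1 Vale.Agent.P146.H376
  Vale.Agent.P146.H767 Vale.Agent.P146.H327

set_option linter.unusedSectionVars false

section gen

variable {κ : Type} [Fintype κ] {F U φ : (κ → ℝ) → ℝ} {D DU : κ → (κ → ℝ) → ℝ}
  {B L x x1 s t0 σ lam δ θ S M X l : ℝ}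

/-- The mean of `φ (z_s)` in the law `(0 | x on [1 - σ, 1])`. -/
noncomputable def Lm (x σ s : ℝ) (F φ : (κ → ℝ) → ℝ) : ℝ :=
  ∫ z, Real.exp (-(x * uu x (1 - σ) F (√(1 - σ) • z))) *
    pin x (1 - σ) s F φ (√(1 - σ) • z) ∂(gI κ)

/-- The base gap. -/
noncomputable def Gp (x1 x σ : ℝ) (F : (κ → ℝ) → ℝ) : ℝ :=
  (W x1 1 F 0 - ∫ z, F z ∂(gI κ)) + 2 * DD (4 * x) σ F

lemma side' {θ : ℝ} (h0 : 0 < θ) (h1 : θ ≤ 1 / 2) : 1 / (1 - θ) - 1 ≤ 2 * θ * (2 - 1) := by
  have h2 : 0 < 1 - θ := by linarith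
  rw [sub_le_iff_le_add, div_le_iff₀ h2]
  nlinarith

lemma P1_nonneg (h : C11 F D B L) (hx1 : 0 < x1) :
    0 ≤ W x1 1 F 0 - ∫ z, F z ∂(gI κ) := by
  have h1 := DD_nonneg h hx1 (zero_le_one) le_rfl
  have h2 := DD_le_W h hx1 (zero_le_one) le_rfl
  linarith

lemma gap2 (h : C11 F D B L) (hc : Cv F) (hx1 : 0 < x1) (h1x : x1 ≤ x) (hθ : 0 < θ)
    (hθ1 : θ ≤ 1 / 2) (h0 : 0 ≤ σ) (h1 : σ ≤ 1) :
    W (θ * x1) (√(1 - σ)) (uu (2 * x) (1 - σ) F) 0 -
      Mn (√(1 - σ)) (uu (2 * x) (1 - σ) F) 0 ≤ θ * Gp x1 x σ F := by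
  have k := gap_uu h hc (x := 2 * x) hx1 (by linarith) hθ (by linarith) (R := 2) (by norm_num)
    (δ := 2 * θ) (by linarith) (by linarith) (side' hθ hθ1) h0 h1
  rw [Mn_zero]
  have e : 2 * (2 * x) = 4 * x := by ring
  rw [e] at k
  unfold Gp
  linarith

lemma gapV (h : C11 F D B L) (hc : Cv F) (hx1 : 0 < x1) (h1x : 2 * x1 ≤ x) (hθ : 0 < θ)
    (hθ1 : θ ≤ 1 / 2) (hs : s ≤ 1) (h0 : 1 - σ ≤ s) (h1 : σ ≤ 1) :
    W (θ * x1) (√(1 - σ)) (W (x / 2) (√(s - (1 - σ))) (uu x s F)) 0 -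
      Mn (√(1 - σ)) (W (x / 2) (√(s - (1 - σ))) (uu x s F)) 0 ≤ θ * Gp x1 x σ F := by
  have hx : 0 < x := by linarith
  have k := gap_V2 h hc (x := x) (y := x / 2) (τ := s - (1 - σ)) (s := 1 - s) hx1
    (by linarith) (by linarith) hθ (by linarith) (R := 2) (by norm_num)
    (δ := 2 * θ) (by linarith) (by linarith) (side' hθ hθ1) (by linarith) (by linarith)
    (by linarith)
  rw [Mn_zero]
  have e1 : 1 - s + (s - (1 - σ)) = σ := by ring
  have e2 : (1 : ℝ) - (1 - s) = s := by ring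
  unfold V2 at k
  rw [e1, e2] at k
  have k2 := DD_mono h hc (x := 2 * x) (y := 4 * x) (s := σ) (by linarith) (by linarith)
    (by linarith) h1
  unfold Gp
  nlinarith

lemma var1 (h : C11 F D B L) (hc : Cv F) (hx1 : 0 < x1) (h1x : x1 ≤ x) (h0 : 0 ≤ σ)
    (h1 : σ ≤ 1) (hS : 2 * Gp x1 x σ F ≤ S ^ 2 * x1) :
    ∫ w, (uu x (1 - σ) F (√(1 - σ) • w) - Mn (√(1 - σ)) (uu x (1 - σ) F) 0) ^ 2 ∂(gI κ) ≤
      S ^ 2 := by
  have hx : 0 < x := by linarith
  have hθ : (0 : ℝ) < 1 / 2 := by norm_num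
  have k := gap_uu h hc (x := x) hx1 h1x hθ (by norm_num) (R := 2) (by norm_num)
    (δ := 2 * (1 / 2)) (by norm_num) (by norm_num) (side' hθ le_rfl) h0 h1
  have v := var_le_gap (c11_uu h hx (1 - σ)) (cv_uu h hc hx (1 - σ))
    (mul_pos hθ hx1) (√(1 - σ)) 0
  simp only [zero_add, Mn_zero] at v ⊢
  have k2 := DD_mono h hc (x := 2 * x) (y := 4 * x) (s := σ) (by linarith) (by linarith) h0 h1
  have hP := P1_nonneg h hx1
  unfold Gp at hS
  have h3 : x1 * ∫ w, (uu x (1 - σ) F (√(1 - σ) • w) -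
      ∫ z, uu x (1 - σ) F (√(1 - σ) • z) ∂(gI κ)) ^ 2 ∂(gI κ) ≤ x1 * S ^ 2 := by
    nlinarith
  exact le_of_mul_le_mul_left h3 hx1

lemma eg_pinN (h : C11 F D B L) (hx : 0 < x) (hφ : EG φ) (t0 s : ℝ) :
    EG fun z => Real.exp (-(x * uu x t0 F z)) * pin x t0 s F φ z := by
  have e : (fun z => Real.exp (-(x * uu x t0 F z)) * pin x t0 s F φ z) =
      fun z => Real.exp (-x * uu x t0 F z) * pin x t0 s F φ z := by
    funext z
    rw [neg_mul]
  rw [e]
  exact ((c11_uu h hx t0).eg_exp (-x)).mul (eg_pin h hx hφ t0 s)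

lemma pinN_le_one (h : C11 F D B L) (hx : 0 < x) (hφ : EG φ) (h1 : ∀ z, φ z ≤ 1)
    (h0 : t0 ≤ s) (hs : s ≤ 1) (y : κ → ℝ) :
    Real.exp (-(x * uu x t0 F y)) * pin x t0 s F φ y ≤ 1 := by
  have k := pin_mono (ψ := fun _ => 1) (t0 := t0) (t := s) h hx hφ (EG.const 1) h1 y
  have k2 : pin x t0 s F (fun _ => 1) y = Real.exp (x * uu x t0 F y) := by
    unfold pin
    simp only [mul_one]
    exact uu_step h hx h0 hs y
  rw [k2] at k
  calc Real.exp (-(x * uu x t0 F y)) * pin x t0 s F φ y ≤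
      Real.exp (-(x * uu x t0 F y)) * Real.exp (x * uu x t0 F y) :=
        mul_le_mul_of_nonneg_left k (Real.exp_pos _).le
    _ = 1 := by
        rw [← Real.exp_add]
        simp

lemma Mn_DD (F : (κ → ℝ) → ℝ) (x σ : ℝ) : Mn (√(1 - σ)) (uu x (1 - σ) F) 0 =
    DD x σ F + ∫ z, F z ∂(gI κ) := by
  rw [Mn_zero]
  unfold DD
  ring

/-- **Upper tail of the squared gradient.** -/
theorem lm_up (h : C11 F D B L) (hc : Cv F) (hx1 : 0 < x1) (h1x : x1 ≤ x) (hθ : 0 < θ)
    (hθ1 : θ ≤ 1 / 2) (h0 : 0 ≤ σ) (h1 : σ ≤ 1) (hS : 0 < S)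
    (hGS : 2 * Gp x1 x σ F ≤ S ^ 2 * x1) (hs0 : 1 - σ ≤ s) (hs : s ≤ 1) (δ M : ℝ) :
    Lm x σ s F (fun z => if M ≤ sq x s F D z then (1 : ℝ) else 0) ≤
      Real.exp (-(θ * x1 * (δ - θ * Gp x1 x σ F))) + Real.exp (3 / 2 - δ / (12 * S)) +
        Real.exp (x * (DD (2 * x) σ F - DD x σ F + 2 * δ) - x ^ 2 / 2 * ((1 - s) * M)) := by
  have hx : 0 < x := by linarith
  have hx2 : 0 < 2 * x := by linarith
  have c1 := c11_uu h hx (1 - σ)
  have c2 := c11_uu h hx2 (1 - σ)
  obtain ⟨b, hb⟩ : ∃ b, b = √(1 - σ) := ⟨_, rfl⟩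
  have l1 : Lip fun z => uu x (1 - σ) F (b • z) := by simpa using c1.lip.lip_smul c1.B0 0 b
  have l2 : Lip fun z => uu (2 * x) (1 - σ) F (b • z) := by
    simpa using c2.lip.lip_smul c2.B0 0 b
  obtain ⟨c, hcc⟩ : ∃ c, c = Real.exp (x * (DD (2 * x) σ F - DD x σ F + 2 * δ) -
    x ^ 2 / 2 * ((1 - s) * M)) := ⟨_, rfl⟩
  have ea : EG fun z => if Mn b (uu (2 * x) (1 - σ) F) 0 + δ ≤ uu (2 * x) (1 - σ) F (b • z) then
      (1 : ℝ) else 0 := by
    refine EG.of_bdd (C := 1) (Measurable.ite (measurableSet_le measurable_const l2.measurable)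
      measurable_const measurable_const) fun z => ?_
    split_ifs <;> simp
  have eb : EG fun z => if uu x (1 - σ) F (b • z) ≤ Mn b (uu x (1 - σ) F) 0 - δ then
      (1 : ℝ) else 0 := by
    refine EG.of_bdd (C := 1) (Measurable.ite (measurableSet_le l1.measurable measurable_const)
      measurable_const measurable_const) fun z => ?_
    split_ifs <;> simp
  have k1 := base_up c2.lip c2.B0 (mul_pos hθ hx1) b δ
  have k2 := base_dn c1.lip c1.B0 (cv_uu h hc hx (1 - σ)) b δ hS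
    (by rw [hb]; exact var1 h hc hx1 h1x h0 h1 hGS)
  have g := gap2 h hc hx1 h1x hθ hθ1 h0 h1
  rw [← hb] at g
  have k3 : Real.exp (θ * x1 * (W (θ * x1) b (uu (2 * x) (1 - σ) F) 0 -
      Mn b (uu (2 * x) (1 - σ) F) 0) - θ * x1 * δ) ≤
      Real.exp (-(θ * x1 * (δ - θ * Gp x1 x σ F))) := by
    refine Real.exp_le_exp.2 ?_
    have := mul_le_mul_of_nonneg_left g (mul_pos hθ hx1).le
    linarith
  have m1 := Mn_DD F x σ
  have m2 := Mn_DD F (2 * x) σ
  rw [← hb] at m1 m2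
  have key : Lm x σ s F (fun z => if M ≤ sq x s F D z then (1 : ℝ) else 0) ≤
      ∫ z, ((if Mn b (uu (2 * x) (1 - σ) F) 0 + δ ≤ uu (2 * x) (1 - σ) F (b • z) then
        (1 : ℝ) else 0) + (if uu x (1 - σ) F (b • z) ≤ Mn b (uu x (1 - σ) F) 0 - δ then
          (1 : ℝ) else 0) + c) ∂(gI κ) := by
    unfold Lm
    rw [← hb]
    refine integral_mono (EG.smul' (eg_pinN h hx (eg_iup h hx s M) (1 - σ) s) b).integrable
      ((ea.add eb).add (EG.const c)).integrable fun z => ?_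
    simp only
    have hc0 : 0 ≤ c := by rw [hcc]; positivity
    have q1 := pinN_le_one h hx (eg_iup h hx s M) (fun z => by split_ifs <;> norm_num) hs0 hs
      (b • z)
    by_cases ha : Mn b (uu (2 * x) (1 - σ) F) 0 + δ ≤ uu (2 * x) (1 - σ) F (b • z)
    · rw [if_pos ha]
      split_ifs <;> linarith
    · by_cases hb' : uu x (1 - σ) F (b • z) ≤ Mn b (uu x (1 - σ) F) 0 - δ
      · rw [if_pos hb', if_neg ha]
        linarith
      · rw [if_neg ha, if_neg hb']
        have q2 := pin_up h hc hx hs0 hs M (b • z)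
        calc Real.exp (-(x * uu x (1 - σ) F (b • z))) *
              pin x (1 - σ) s F (fun z => if M ≤ sq x s F D z then (1 : ℝ) else 0) (b • z) ≤
            Real.exp (-(x * uu x (1 - σ) F (b • z))) *
              Real.exp (x * uu (2 * x) (1 - σ) F (b • z) - x ^ 2 / 2 * ((1 - s) * M)) :=
              mul_le_mul_of_nonneg_left q2 (Real.exp_pos _).le
          _ = Real.exp (x * (uu (2 * x) (1 - σ) F (b • z) - uu x (1 - σ) F (b • z)) -
                x ^ 2 / 2 * ((1 - s) * M)) := by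
              rw [← Real.exp_add]
              congr 1
              ring
          _ ≤ c := by
              rw [hcc]
              refine Real.exp_le_exp.2 ?_
              have h5 : uu (2 * x) (1 - σ) F (b • z) - uu x (1 - σ) F (b • z) ≤
                  DD (2 * x) σ F - DD x σ F + 2 * δ := by linarith
              have h6 := mul_le_mul_of_nonneg_left h5 hx.le
              linarith
          _ ≤ _ := by linarith
  refine key.trans ?_
  rw [integral_add (ea.add eb).integrable (EG.const c).integrable,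
    integral_add ea.integrable eb.integrable]
  simp only [integral_const, probReal_univ, one_smul]
  rw [← hcc]
  linarith

/-- **Lower tail of the squared gradient.** -/
theorem lm_lo (h : C11 F D B L) (hc : Cv F) (hx1 : 0 < x1) (h1x : 2 * x1 ≤ x) (hθ : 0 < θ)
    (hθ1 : θ ≤ 1 / 2) (h0 : 0 ≤ σ) (h1 : σ ≤ 1) (hS : 0 < S)
    (hGS : 2 * Gp x1 x σ F ≤ S ^ 2 * x1) (hs0 : 1 - σ ≤ s) (hs : s ≤ 1) (δ X l : ℝ) :
    Lm x σ s F (fun z => if sq x s F D z ≤ l ^ 2 then (1 : ℝ) else 0) ≤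
      Real.exp (-(θ * x1 * (δ - θ * Gp x1 x σ F))) + Real.exp (3 / 2 - δ / (12 * S)) +
        (Real.exp (-X + (2 * x) ^ 2 * l ^ 2 * (s - (1 - σ))) +
        Real.exp (X / 2 - x / 2 * ((DD x σ F - DD x (1 - s) F) / 2 - 2 * δ))) := by
  have hx : 0 < x := by linarith
  have hx2 : 0 < x / 2 := by linarith
  have c1 := c11_uu h hx (1 - σ)
  have cs := c11_uu h hx s
  have c2 := cs.W' hx2 (√(s - (1 - σ)))
  obtain ⟨b, hb⟩ : ∃ b, b = √(1 - σ) := ⟨_, rfl⟩
  obtain ⟨V, hV⟩ : ∃ V, V = W (x / 2) (√(s - (1 - σ))) (uu x s F) := ⟨_, rfl⟩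
  have c2' := c2
  rw [← hV] at c2'
  have l1 : Lip fun z => uu x (1 - σ) F (b • z) := by simpa using c1.lip.lip_smul c1.B0 0 b
  have l2 : Lip fun z => V (b • z) := by
    simpa using c2'.lip.lip_smul c2'.B0 0 b
  obtain ⟨c, hcc⟩ : ∃ c, c = Real.exp (-X + (2 * x) ^ 2 * l ^ 2 * (s - (1 - σ))) +
    Real.exp (X / 2 - x / 2 * ((DD x σ F - DD x (1 - s) F) / 2 - 2 * δ)) := ⟨_, rfl⟩
  have ea : EG fun z => if Mn b V 0 + δ ≤ V (b • z) then (1 : ℝ) else 0 := by
    refine EG.of_bdd (C := 1) (Measurable.ite (measurableSet_le measurable_const l2.measurable)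
      measurable_const measurable_const) fun z => ?_
    split_ifs <;> simp
  have eb : EG fun z => if uu x (1 - σ) F (b • z) ≤ Mn b (uu x (1 - σ) F) 0 - δ then
      (1 : ℝ) else 0 := by
    refine EG.of_bdd (C := 1) (Measurable.ite (measurableSet_le l1.measurable measurable_const)
      measurable_const measurable_const) fun z => ?_
    split_ifs <;> simp
  have k1 := base_up c2'.lip c2'.B0 (mul_pos hθ hx1) b δ
  have k2 := base_dn c1.lip c1.B0 (cv_uu h hc hx (1 - σ)) b δ hS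
    (by rw [hb]; exact var1 h hc hx1 (by linarith) h0 h1 hGS)
  have g := gapV h hc hx1 h1x hθ hθ1 hs hs0 h1
  rw [← hb, ← hV] at g
  have k3 : Real.exp (θ * x1 * (W (θ * x1) b V 0 - Mn b V 0) - θ * x1 * δ) ≤
      Real.exp (-(θ * x1 * (δ - θ * Gp x1 x σ F))) := by
    refine Real.exp_le_exp.2 ?_
    have := mul_le_mul_of_nonneg_left g (mul_pos hθ hx1).le
    linarith
  have m1 := Mn_DD F x σ
  rw [← hb] at m1
  -- the mean of `V`
  have m2 : Mn b V 0 ≤ Mn b (uu x (1 - σ) F) 0 - (DD x σ F - DD x (1 - s) F) / 2 := by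
    have hpt : ∀ z, V z ≤ (1 / 2) * Mn (√(s - (1 - σ))) (uu x s F) z +
        (1 / 2) * uu x (1 - σ) F z := by
      intro z
      have q := gap_slope cs (cv_uu h hc hx s) hx hx2 (by linarith) (√(s - (1 - σ))) z
      rw [← hV] at q
      have e1 : W x (√(s - (1 - σ))) (uu x s F) z = uu x (1 - σ) F z := by
        unfold uu
        refine W_W h.lip h.B0 hx ?_ z
        rw [Real.sq_sqrt (by linarith), Real.sq_sqrt (by linarith), Real.sq_sqrt (by linarith)]
        ring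
      rw [e1] at q
      have q2 : x * (V z - Mn (√(s - (1 - σ))) (uu x s F) z) ≤
          x * (1 / 2 * (uu x (1 - σ) F z - Mn (√(s - (1 - σ))) (uu x s F) z)) := by linarith
      have q3 := le_of_mul_le_mul_left q2 hx
      linarith
    have i0 : EG fun z => Mn (√(s - (1 - σ))) (uu x s F) z := EG.conv cs.eg _
    have q4 : ∫ z, V (b • z) ∂(gI κ) ≤ ∫ z, ((1 / 2) * Mn (√(s - (1 - σ))) (uu x s F) (b • z) +
        (1 / 2) * uu x (1 - σ) F (b • z)) ∂(gI κ) :=
      integral_mono l2.eg.integrable (((EG.smul' i0 b).const_mul _).add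
        (l1.eg.const_mul _)).integrable fun z => hpt _
    rw [integral_add ((EG.smul' i0 b).const_mul _).integrable (l1.eg.const_mul _).integrable,
      integral_const_mul, integral_const_mul] at q4
    have q5 : ∫ z, Mn (√(s - (1 - σ))) (uu x s F) (b • z) ∂(gI κ) =
        DD x (1 - s) F + ∫ z, F z ∂(gI κ) := by
      have q6 := int_V0 (τ := s - (1 - σ)) (s := 1 - s) h hx (by linarith) (by linarith)
      have e1 : 1 - s + (s - (1 - σ)) = σ := by ring
      have e2 : (1 : ℝ) - (1 - s) = s := by ring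
      unfold V0 at q6
      rw [e1, e2, ← hb] at q6
      rw [q6]
      unfold DD
      rw [e2]
      ring
    rw [Mn_zero] at m1 ⊢
    rw [q5] at q4
    rw [Mn_zero]
    linarith
  have key : Lm x σ s F (fun z => if sq x s F D z ≤ l ^ 2 then (1 : ℝ) else 0) ≤
      ∫ z, ((if Mn b V 0 + δ ≤ V (b • z) then (1 : ℝ) else 0) +
        (if uu x (1 - σ) F (b • z) ≤ Mn b (uu x (1 - σ) F) 0 - δ then
          (1 : ℝ) else 0) + c) ∂(gI κ) := by
    unfold Lm
    rw [← hb]
    refine integral_mono (EG.smul' (eg_pinN h hx (eg_ilo h hx s (l ^ 2)) (1 - σ) s) b).integrable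
      ((ea.add eb).add (EG.const c)).integrable fun z => ?_
    simp only
    have hc0 : 0 ≤ c := by rw [hcc]; positivity
    have q1 := pinN_le_one h hx (eg_ilo h hx s (l ^ 2)) (fun z => by split_ifs <;> norm_num)
      hs0 hs (b • z)
    by_cases ha : Mn b V 0 + δ ≤ V (b • z)
    · rw [if_pos ha]
      split_ifs <;> linarith
    · by_cases hb' : uu x (1 - σ) F (b • z) ≤ Mn b (uu x (1 - σ) F) 0 - δ
      · rw [if_pos hb', if_neg ha]
        linarith
      · rw [if_neg ha, if_neg hb']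
        have q2 := pin_lo h hc hx hs0 hs X l (b • z)
        rw [← hV] at q2
        have q3 : Real.exp (X / 2 - x / 2 * (uu x (1 - σ) F (b • z) - V (b • z))) ≤
            Real.exp (X / 2 - x / 2 * ((DD x σ F - DD x (1 - s) F) / 2 - 2 * δ)) := by
          refine Real.exp_le_exp.2 ?_
          have h5 : (DD x σ F - DD x (1 - s) F) / 2 - 2 * δ ≤
              uu x (1 - σ) F (b • z) - V (b • z) := by linarith
          have h6 := mul_le_mul_of_nonneg_left h5 hx2.le
          linarith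
        calc Real.exp (-(x * uu x (1 - σ) F (b • z))) *
              pin x (1 - σ) s F (fun z => if sq x s F D z ≤ l ^ 2 then (1 : ℝ) else 0) (b • z) ≤
            Real.exp (-(x * uu x (1 - σ) F (b • z))) *
              (Real.exp (x * uu x (1 - σ) F (b • z)) *
                (Real.exp (-X + (2 * x) ^ 2 * l ^ 2 * (s - (1 - σ))) +
        Real.exp (X / 2 - x / 2 * (uu x (1 - σ) F (b • z) - V (b • z))))) :=
              mul_le_mul_of_nonneg_left q2 (Real.exp_pos _).le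
          _ = Real.exp (-X + (2 * x) ^ 2 * l ^ 2 * (s - (1 - σ))) +
        Real.exp (X / 2 - x / 2 * (uu x (1 - σ) F (b • z) - V (b • z))) := by
              rw [← mul_assoc, ← Real.exp_add]
              simp
          _ ≤ c := by
              rw [hcc]
              linarith
          _ ≤ _ := by linarith
  refine key.trans ?_
  rw [integral_add (ea.add eb).integrable (EG.const c).integrable,
    integral_add ea.integrable eb.integrable]
  simp only [integral_const, probReal_univ, one_smul]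
  rw [← hcc]
  linarith

end gen

end Vale.Agent.P146.H620
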