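import Vale.Agent.P146.H620.Fd2
import Vale.Agent.P146.H332.CDef

/-!
# P146: the means of the law `(0 | x on [1 - σ, 1])` as means of the four position law at `θ = -1`
-/

open MeasureTheory ProbabilityTheory

namespace Vale.Agent.P146.H620

open Vale.Agent.P157.Lv Vale.Agent.P146.H425 Vale.Agent.P146.R1 Vale.Agent.P146.H376
  Vale.Agent.P146.H767 Vale.Agent.P146.H327

set_option linter.unusedSectionVars false

section gen

variable {κ : Type} [Fintype κ] {F U φ : (κ → ℝ) → ℝ} {D DU : κ → (κ → ℝ) → ℝ}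
  {B L x x1 s t0 σ lam δ θ S M X l : ℝ}

lemma dn_w (x σ s : ℝ) (F : (κ → ℝ) → ℝ) (z1 z2 : κ → ℝ) :
    dn x (-1) 0 (1 - σ) s F 0 z1 z2 = Real.exp (x * uu x 0 F 0) *
      (Real.exp (-(x * uu x (1 - σ) F z1)) * Real.exp (x * uu x s F z2)) := by
  unfold dn xi
  rw [← Real.exp_add, ← Real.exp_add]
  congr 1
  ring

lemma Eu_w2 (h : C11 F D B L) (hx : 0 < x) (hφ : EG φ) (σ s : ℝ) :
    Eu x (-1) 0 (1 - σ) s F (fun _ _ z2 => φ z2) =
      Real.exp (x * uu x 0 F 0) * Lm x σ s F φ := by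
  rw [Eu_iter h hx (E3.of2 hφ)]
  simp only [Real.sqrt_zero, zero_smul, zero_add, sub_zero, dn_w, integral_const,
    probReal_univ, one_smul]
  unfold Lm pin
  rw [← integral_const_mul]
  refine integral_congr_ae (Filter.Eventually.of_forall fun y => ?_)
  simp only
  rw [← integral_const_mul, ← integral_const_mul]
  refine integral_congr_ae (Filter.Eventually.of_forall fun w => ?_)
  simp only
  ring

lemma pin_one (h : C11 F D B L) (hx : 0 < x) (h0 : t0 ≤ s) (hs : s ≤ 1) (y : κ → ℝ) :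
    pin x t0 s F (fun _ => 1) y = Real.exp (x * uu x t0 F y) := by
  unfold pin
  simp only [mul_one]
  exact uu_step h hx h0 hs y

lemma Lm_one (h : C11 F D B L) (hx : 0 < x) (h0 : 1 - σ ≤ s) (hs : s ≤ 1) :
    Lm x σ s F (fun _ => 1) = 1 := by
  unfold Lm
  have e : ∀ z : κ → ℝ, Real.exp (-(x * uu x (1 - σ) F (√(1 - σ) • z))) *
      pin x (1 - σ) s F (fun _ => 1) (√(1 - σ) • z) = 1 := fun z => by
    rw [pin_one h hx h0 hs, ← Real.exp_add]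
    simp
  simp_rw [e]
  simp

lemma Eu_w1 (h : C11 F D B L) (hx : 0 < x) (hφ : EG φ) (h0 : 1 - σ ≤ s) (hs : s ≤ 1) :
    Eu x (-1) 0 (1 - σ) s F (fun _ z1 _ => φ z1) =
      Real.exp (x * uu x 0 F 0) * ∫ z, φ (√(1 - σ) • z) ∂(gI κ) := by
  rw [Eu_iter h hx (E3.of1 hφ)]
  simp only [Real.sqrt_zero, zero_smul, zero_add, sub_zero, dn_w, integral_const,
    probReal_univ, one_smul]
  rw [← integral_const_mul]
  refine integral_congr_ae (Filter.Eventually.of_forall fun y => ?_)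
  simp only
  have e : ∀ w : κ → ℝ, Real.exp (x * uu x 0 F 0) *
      (Real.exp (-(x * uu x (1 - σ) F (√(1 - σ) • y))) *
        Real.exp (x * uu x s F (√(1 - σ) • y + √(s - (1 - σ)) • w))) * φ (√(1 - σ) • y) =
      Real.exp (x * uu x 0 F 0) * Real.exp (-(x * uu x (1 - σ) F (√(1 - σ) • y))) *
        φ (√(1 - σ) • y) * Real.exp (x * uu x s F (√(1 - σ) • y + √(s - (1 - σ)) • w)) :=
    fun w => by ring
  simp_rw [e]
  rw [integral_const_mul, uu_step h hx h0 hs]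
  have e2 : Real.exp (x * uu x 0 F 0) * Real.exp (-(x * uu x (1 - σ) F (√(1 - σ) • y))) *
      φ (√(1 - σ) • y) * Real.exp (x * uu x (1 - σ) F (√(1 - σ) • y)) =
      Real.exp (x * uu x 0 F 0) * φ (√(1 - σ) • y) *
        (Real.exp (-(x * uu x (1 - σ) F (√(1 - σ) • y))) *
          Real.exp (x * uu x (1 - σ) F (√(1 - σ) • y))) := by ring
  rw [e2, ← Real.exp_add]
  simp

/-- the mean of a function of the last position -/
lemma Et_w2 (h : C11 F D B L) (hx : 0 < x) (hφ : EG φ) (h0 : 1 - σ ≤ s) (hs : s ≤ 1) :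
    Et x (-1) 0 (1 - σ) s F (fun _ _ z2 => φ z2) = Lm x σ s F φ := by
  unfold Et
  rw [Eu_w2 h hx hφ, Eu_w2 (φ := fun _ => 1) h hx (EG.const 1), Lm_one h hx h0 hs, mul_one]
  field_simp

/-- the mean of a function of the free position -/
lemma Et_w1 (h : C11 F D B L) (hx : 0 < x) (hφ : EG φ) (h0 : 1 - σ ≤ s) (hs : s ≤ 1) :
    Et x (-1) 0 (1 - σ) s F (fun _ z1 _ => φ z1) = ∫ z, φ (√(1 - σ) • z) ∂(gI κ) := by
  unfold Et
  rw [Eu_w1 h hx hφ h0 hs, Eu_w1 (φ := fun _ => 1) h hx (EG.const 1) h0 hs]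
  simp only [integral_const, probReal_univ, one_smul, mul_one]
  field_simp

lemma Lm_self (h : C11 F D B L) (hx : 0 < x) (hφ : EG φ) :
    Lm x σ (1 - σ) F φ = ∫ z, φ (√(1 - σ) • z) ∂(gI κ) := by
  unfold Lm
  refine integral_congr_ae (Filter.Eventually.of_forall fun z => ?_)
  simp only
  rw [pin_self, ← mul_assoc, ← Real.exp_add]
  simp

end gen

section four

variable {κ : Type} [Fintype κ] [DecidableEq κ] {F φ : (κ → ℝ) → ℝ} {D : κ → (κ → ℝ) → ℝ}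
  {B L x s1 s2 σ : ℝ}

open Vale.Agent.P146.R1C in
lemma En_w1 (h : C11 F D B L) (hx : 0 < x) (hφ : EG φ) (h0 : 1 - σ ≤ s1) (h12 : s1 ≤ s2)
    (hs : s2 ≤ 1) : En ⟨x, -1, 0, 1 - σ, s1, s2⟩ F
      (fun w => φ (P1 ⟨x, -1, 0, 1 - σ, s1, s2⟩ w)) = Lm x σ (1 - σ) F φ := by
  rw [Lm_self h hx hφ, ← Et_w1 (s := s1) h hx hφ h0 (h12.trans hs)]
  exact (En_eq ⟨x, -1, 0, 1 - σ, s1, s2⟩ F fun _ z1 _ _ => φ z1).trans
    (Et4_123 h hx (E3.of1 hφ) h12 hs)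

open Vale.Agent.P146.R1C in
lemma En_w2 (h : C11 F D B L) (hx : 0 < x) (hφ : EG φ) (h0 : 1 - σ ≤ s1) (h12 : s1 ≤ s2)
    (hs : s2 ≤ 1) : En ⟨x, -1, 0, 1 - σ, s1, s2⟩ F
      (fun w => φ (P2 ⟨x, -1, 0, 1 - σ, s1, s2⟩ w)) = Lm x σ s1 F φ := by
  rw [← Et_w2 (s := s1) h hx hφ h0 (h12.trans hs)]
  exact (En_eq ⟨x, -1, 0, 1 - σ, s1, s2⟩ F fun _ _ z2 _ => φ z2).trans
    (Et4_123 h hx (E3.of2 hφ) h12 hs)

open Vale.Agent.P146.R1C in
lemma En_w3 (h : C11 F D B L) (hx : 0 < x) (hφ : EG φ) (h0 : 1 - σ ≤ s1) (h12 : s1 ≤ s2)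
    (hs : s2 ≤ 1) : En ⟨x, -1, 0, 1 - σ, s1, s2⟩ F
      (fun w => φ (P3 ⟨x, -1, 0, 1 - σ, s1, s2⟩ w)) = Lm x σ s2 F φ := by
  rw [← Et_w2 (s := s2) h hx hφ (h0.trans h12) hs]
  exact (En_eq ⟨x, -1, 0, 1 - σ, s1, s2⟩ F fun _ _ _ z3 => φ z3).trans
    (Et4_124 h hx (E3.of2 hφ) h0 h12)

end four

end Vale.Agent.P146.H620
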