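import Vale.Agent.P146.H620.Fd3
import Vale.Agent.P146.H641.DeepNum
import Vale.Agent.P146.H767.SaM
import Vale.Agent.P146.H432.XLo

/-!
# P146: the sizes at a good window, with numbers

Let `D = D(x, s) ≥ n^(1/6+κ)`, `D(4x, s) ≤ K D`, `D(x, 7s/8) ≤ (1-κ) D` (`x ≥ n^(-1/6)`).  In the
law `(0 | x on [1-s, 1])` of the deep functional the squared gradient at every time
`1 - 7s/8 ≤ t ≤ 1 - s/2` is between `ρ/A₀` and `A₀ ρ`, `ρ = 2 D/(x s)`, off a set of measure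
`exp(-n^(κ/3))`; the upper bound holds from `t = 1 - s` on.
-/

open MeasureTheory ProbabilityTheory Filter Topology

namespace Vale.Agent.P146.H620

open Vale.Agent.P157.Lv Vale.Agent.P146.H425 Vale.Agent.P146.R1 Vale.Agent.P146.H376
  Vale.Agent.P146.H767 Vale.Agent.P146.H327 Vale.Agent.P146.H332 Vale.Agent.P146.H325
open Vale.Agent.P146.H432 (Dn Lg ev_small ev_big)

set_option linter.unusedSectionVars false

/-- four small terms -/
lemma ev_four {κ c : ℝ} (hκ : 0 < κ) (hc : 0 < c) : ∀ᶠ n : ℕ in atTop,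
    4 * Real.exp (3 / 2 - c * (n : ℝ) ^ (κ / 2)) ≤ Real.exp (-(n : ℝ) ^ (κ / 3)) ∧
      1 ≤ (n : ℝ) ^ (κ / 2) := by
  have hκ6 : 0 < κ / 6 := by positivity
  filter_upwards [ev_big (C := 5 / c) hκ6, eventually_ge_atTop 1] with n h1 h2
  have hn1 : (1 : ℝ) ≤ n := by exact_mod_cast h2
  have hn0 : (0 : ℝ) < n := by linarith
  have h3 : (n : ℝ) ^ (κ / 2) = (n : ℝ) ^ (κ / 6) * (n : ℝ) ^ (κ / 3) := by
    rw [← Real.rpow_add hn0]
    congr 1
    ring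
  have h4 : 1 ≤ (n : ℝ) ^ (κ / 3) := Real.one_le_rpow hn1 (by positivity)
  have h5 : 5 * (n : ℝ) ^ (κ / 3) ≤ c * (n : ℝ) ^ (κ / 2) := by
    rw [h3, ← mul_assoc]
    refine mul_le_mul_of_nonneg_right ?_ (by linarith)
    have := mul_le_mul_of_nonneg_left h1.le hc.le
    rwa [mul_div_cancel₀ _ hc.ne'] at this
  refine ⟨?_, Real.one_le_rpow hn1 (by positivity)⟩
  have h6 : (4 : ℝ) ≤ Real.exp 2 := by
    have := Real.add_one_le_exp (1 : ℝ)
    have e : Real.exp 2 = Real.exp 1 * Real.exp 1 := by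
      rw [← Real.exp_add]
      norm_num
    rw [e]
    nlinarith
  calc 4 * Real.exp (3 / 2 - c * (n : ℝ) ^ (κ / 2)) ≤
      Real.exp 2 * Real.exp (3 / 2 - c * (n : ℝ) ^ (κ / 2)) :=
        mul_le_mul_of_nonneg_right h6 (Real.exp_pos _).le
    _ = Real.exp (2 + (3 / 2 - c * (n : ℝ) ^ (κ / 2))) := (Real.exp_add _ _).symm
    _ ≤ _ := Real.exp_le_exp.2 (by linarith)

/-- the base moment of the deep functional -/
theorem base_deep {β : ℝ} (hβ : 0 < β) {κ : ℝ} (hκ : 0 < κ) : ∀ᶠ n : ℕ in atTop,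
    ∀ (m σ : ℕ → ℝ) (J : ℕ), Lay n β m σ J →
      W ((n : ℝ) ^ (-(1 / 6) : ℝ) / 2) 1 (Fz n β m σ J) 0 - ∫ z, Fz n β m σ J z ∂(gI (Pair n)) ≤
        (n : ℝ) ^ (1 / 6 + κ) := by
  filter_upwards [H432.Lg_base hβ (d := κ / 2) (by positivity),
    ev_big (C := 3) (show 0 < κ / 2 by positivity), eventually_gt_atTop 0] with n h1 h2 h3 m σ J hL
  have hn0 : (0 : ℝ) < n := by exact_mod_cast h3
  have hn1 : (1 : ℝ) ≤ n := by exact_mod_cast h3
  have hx1 : 0 < (n : ℝ) ^ (-(1 / 6) : ℝ) / 2 := by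
    have := Real.rpow_pos_of_pos hn0 (-(1 / 6) : ℝ)
    positivity
  obtain ⟨x1, hx⟩ : ∃ x1, x1 = (n : ℝ) ^ (-(1 / 6) : ℝ) / 2 := ⟨_, rfl⟩
  rw [← hx] at hx1 h1 ⊢
  rw [Lg_W n β hx1] at h1
  obtain ⟨B, L, M, T, hS⟩ := sm_Fz (n := n) (β := β) (m := m) (σ := σ) (J := J) hL.pos
  have h0 := c11_lz (β / √n) (SkS (n := n))
  have f1 : ∀ z, lz (β / √n) SkS z ≤ Fz n β m σ J z := fun z =>
    (FD_lz (σ := σ) h3 β hL.pos hL.le z).1
  have f2 : ∀ z, Fz n β m σ J z ≤ lz (β / √n) SkS z + (n : ℝ) ^ (1 / 6 : ℝ) := fun z => by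
    have k1 := (FD_lz (σ := σ) h3 β hL.pos hL.le z).2
    have k2 := hL.sz
    exact k1.trans (by linarith)
  have h4 := hS.c11
  generalize Fz n β m σ J = G at f1 f2 h4 ⊢
  have hc : LipB (fun z => lz (β / √n) SkS z + (n : ℝ) ^ (1 / 6 : ℝ)) _ := fun u w => by
    have := h0.lip u w
    simpa using this
  have k2 : W x1 1 G 0 ≤ W x1 1 (lz (β / √n) (SkS (n := n))) 0 + (n : ℝ) ^ (1 / 6 : ℝ) := by
    have := H941.W_mono (s := 1) h4.lip h4.B0 hc h0.B0 hx1 f2 0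
    rwa [H941.W_add_const h0.lip h0.B0 hx1] at this
  have b1 := integral_mono h0.eg.integrable h4.eg.integrable f1
  have e1 : (n : ℝ) ^ (1 / 6 + κ) =
      (n : ℝ) ^ (1 / 6 : ℝ) * ((n : ℝ) ^ (κ / 2) * (n : ℝ) ^ (κ / 2)) := by
    rw [← Real.rpow_add hn0, ← Real.rpow_add hn0]
    congr 1
    ring
  have e2 : x1 * (2 * (n : ℝ) ^ (1 / 6 : ℝ)) = 1 := by
    have : (n : ℝ) ^ (-(1 / 6) : ℝ) * (n : ℝ) ^ (1 / 6 : ℝ) = 1 := by
      rw [← Real.rpow_add hn0]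
      norm_num
    rw [hx]
    linarith
  have k3 : W x1 1 (lz (β / √n) (SkS (n := n))) 0 - ∫ z, lz (β / √n) (SkS (n := n)) z ∂(gI (Pair n)) ≤
      2 * (n : ℝ) ^ (1 / 6 : ℝ) * (n : ℝ) ^ (κ / 2) := by
    refine le_of_mul_le_mul_left (h1.trans (le_of_eq ?_)) hx1
    rw [← mul_assoc, e2, one_mul]
  have e6 : 0 < (n : ℝ) ^ (1 / 6 : ℝ) := Real.rpow_pos_of_pos hn0 _
  rw [e1]
  have e7 : (n : ℝ) ^ (1 / 6 : ℝ) * (3 * (n : ℝ) ^ (κ / 2)) ≤
      (n : ℝ) ^ (1 / 6 : ℝ) * ((n : ℝ) ^ (κ / 2) * (n : ℝ) ^ (κ / 2)) :=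
    mul_le_mul_of_nonneg_left (mul_le_mul_of_nonneg_right h2.le (by linarith)) e6.le
  have e8 : (n : ℝ) ^ (1 / 6 : ℝ) * 1 ≤ (n : ℝ) ^ (1 / 6 : ℝ) * (n : ℝ) ^ (κ / 2) :=
    mul_le_mul_of_nonneg_left (by linarith) e6.le
  linarith

/-- the exponents of the two base terms -/
lemma base_num {κ C N D x1 θ δ S G : ℝ} (hκ : 0 < κ) (hC : 1 ≤ C) (hN : 0 < N)
    (hD : N ^ (1 / 6 + κ) ≤ D) (hx1 : x1 = N ^ (-(1 / 6) : ℝ) / 2)
    (hθ : θ = κ / (128 * C)) (hδ : δ = κ * D / 64) (hS : S = √(2 * C * D / x1))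
    (hG : G ≤ C * D) (hN1 : 1 ≤ N ^ (κ / 2)) :
    κ ^ 2 / (32768 * C) * N ^ (κ / 2) ≤ θ * x1 * (δ - θ * G) ∧
      κ / (2000 * C) * N ^ (κ / 2) ≤ δ / (12 * S) ∧ 0 < S ∧ 2 * G ≤ S ^ 2 * x1 := by
  have hx0 : 0 < x1 := by
    rw [hx1]
    have := Real.rpow_pos_of_pos hN (-(1 / 6) : ℝ)
    positivity
  have h6 : 0 < N ^ (1 / 6 : ℝ) := Real.rpow_pos_of_pos hN _
  obtain ⟨u, hu⟩ : ∃ u, u = N ^ (κ / 2) := ⟨_, rfl⟩
  obtain ⟨v, hv⟩ : ∃ v, v = N ^ (1 / 6 : ℝ) := ⟨_, rfl⟩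
  rw [← hu] at hN1 ⊢
  rw [← hv] at h6
  have e1 : N ^ (1 / 6 + κ) = v * u ^ 2 := by
    rw [hu, hv, ← Real.rpow_natCast, ← Real.rpow_mul hN.le, ← Real.rpow_add hN]
    congr 1
    push_cast
    ring
  have e2 : x1 * (2 * v) = 1 := by
    have : N ^ (-(1 / 6) : ℝ) * N ^ (1 / 6 : ℝ) = 1 := by
      rw [← Real.rpow_add hN]
      norm_num
    rw [hx1, hv]
    linarith
  have e3 : x1 = 1 / (2 * v) := by
    rw [eq_div_iff (by positivity)]
    exact e2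
  rw [e1] at hD
  have hu0 : 0 < u := by linarith
  have hD0 : 0 < D := lt_of_lt_of_le (by positivity) hD
  have hθ0 : 0 < θ := by rw [hθ]; positivity
  have hS2 : S ^ 2 = 2 * C * D / x1 := by
    rw [hS, Real.sq_sqrt (by positivity)]
  have hS0 : 0 < S := by
    rw [hS]
    exact Real.sqrt_pos.2 (by positivity)
  refine ⟨?_, ?_, hS0, ?_⟩
  · have h1 : θ * G ≤ κ * D / 128 := by
      calc θ * G ≤ θ * (C * D) := mul_le_mul_of_nonneg_left hG hθ0.le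
        _ = κ * D / 128 := by
            rw [hθ]
            field_simp
    have h2 : κ * D / 128 ≤ δ - θ * G := by
      rw [hδ]
      linarith
    have h3 : θ * x1 * (κ * D / 128) ≤ θ * x1 * (δ - θ * G) :=
      mul_le_mul_of_nonneg_left h2 (by positivity)
    refine le_trans ?_ h3
    have h4 : θ * x1 * (κ * D / 128) = κ ^ 2 / (32768 * C) * (D / v) := by
      rw [hθ, e3]
      field_simp
      norm_num
    rw [h4]
    refine mul_le_mul_of_nonneg_left ?_ (by positivity)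
    rw [le_div_iff₀ h6]
    nlinarith
  · rw [le_div_iff₀ (by positivity)]
    -- `S ≤ 2 √(C D v)`, `u S ≤ ...`
    have h5 : (κ / (2000 * C) * u * (12 * S)) ^ 2 ≤ δ ^ 2 := by
      have h6' : S ^ 2 = 4 * C * D * v := by
        rw [hS2, e3]
        field_simp
        ring
      have h7 : (κ / (2000 * C) * u * (12 * S)) ^ 2 =
          (κ / (2000 * C)) ^ 2 * 144 * (u ^ 2 * S ^ 2) := by ring
      rw [h7, h6', hδ]
      have h8 : u ^ 2 * (4 * C * D * v) ≤ 4 * C * D ^ 2 := by nlinarith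
      have h9 : (κ / (2000 * C)) ^ 2 * 144 * (u ^ 2 * (4 * C * D * v)) ≤
          (κ / (2000 * C)) ^ 2 * 144 * (4 * C * D ^ 2) :=
        mul_le_mul_of_nonneg_left h8 (by positivity)
      refine h9.trans ?_
      have h10 : (κ / (2000 * C)) ^ 2 * 144 * (4 * C * D ^ 2) =
          (κ * D) ^ 2 * (576 / (4000000 * C)) := by
        field_simp
        norm_num
      rw [h10]
      have h11 : 576 / (4000000 * C) ≤ 1 / 4096 := by
        rw [div_le_div_iff₀ (by positivity) (by norm_num)]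
        nlinarith
      calc (κ * D) ^ 2 * (576 / (4000000 * C)) ≤ (κ * D) ^ 2 * (1 / 4096) :=
            mul_le_mul_of_nonneg_left h11 (by positivity)
        _ = (κ * D / 64) ^ 2 := by ring
    exact le_of_sq_le_sq h5 (by rw [hδ]; positivity)
  · rw [hS2, div_mul_cancel₀ _ hx0.ne']
    linarith

end Vale.Agent.P146.H620
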